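import Crest.Agent.R192.Glue.Core
import Crest.Agent.R192.A.Main
import Crest.Agent.R192.Z.Main
import Crest.Agent.R192.CW.Main
import Crest.Agent.R192.E.Main
import Crest.Agent.R192.G.Main
import Crest.Agent.R192.HS.Main
import Crest.Agent.R192.HG.Main
import Crest.Agent.R192.HN.Main
import Crest.Agent.R192.J.Main
import Crest.Agent.R192.K.Main
import Crest.Agent.R192.L.Main
import Crest.Agent.R192.M.Main
import Crest.Agent.R192.I.Main
import Crest.Agent.R192.Gap.Main

/-! R192/Main: the two statements of row 192. -/

set_option autoImplicit false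

namespace Crest.Agent.R192

theorem st92 : St92 :=
  stA (core stCW stE stG stG2 stHS (stHG stJ stHS) (stHN stHS (stHG stJ stHS)) stK stL stM stI stGap)

theorem st93 : St93 := stZ st92

end Crest.Agent.R192
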